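import Mathlib

/-!
P193, module W4 (`notes/P193_W4_frozen.md`): what the common layer reads out at each cell and the
rules of the coset layer. `k` is the number of generators, listed symmetrically without `1`;
track `none` of a letter is the sequence of the coset itself.
-/

namespace Vale.Agent.P193.W4

variable {k : ℕ}

/-! ### Digits of the three counter axes -/

/-- A letter: one bit per track. -/
abbrev Full (k : ℕ) : Type := Option (Fin k) → Bool

/-- The symbols on middle digits. -/
inductive Mid (k : ℕ) where
  | full (d : Full k)
  | pad (b : Bool)
  | hash
  | phash
  | reset
  | pass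
deriving DecidableEq, Fintype

/-- The number of digits of a counter axis. -/
def base (k : ℕ) : ℕ := 2 * Fintype.card (Mid k) + 3

/-- The digit carrying a symbol. -/
noncomputable def pos (m : Mid k) : Fin (base k) :=
  ⟨2 * (Fintype.equivFin (Mid k) m).val + 2, by
    have := (Fintype.equivFin (Mid k) m).isLt
    simp only [base]
    omega⟩

open Classical in
/-- The symbol of a digit; `none` is a dead digit. -/
noncomputable def sym (i : Fin (base k)) : Option (Mid k) :=
  if h : ∃ m, pos m = i then some h.choose else none

lemma pos_injective : Function.Injective (pos : Mid k → Fin (base k)) := by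
  intro a b h
  apply (Fintype.equivFin (Mid k)).injective
  have h' : 2 * (Fintype.equivFin (Mid k) a).val + 2 = 2 * (Fintype.equivFin (Mid k) b).val + 2 :=
    congrArg Fin.val h
  exact Fin.ext (by omega)

lemma sym_eq_some {i : Fin (base k)} {m : Mid k} : sym i = some m ↔ pos m = i := by
  constructor
  · intro h
    unfold sym at h
    split at h
    · rename_i he
      rw [← Option.some.inj h]
      exact he.choose_spec
    · cases h
  · intro h
    have he : ∃ m, pos m = i := ⟨m, h⟩
    rw [sym, dif_pos he]
    exact congrArg some (pos_injective (he.choose_spec.trans h.symm))

/-- The neighbours of a symbol are dead middle digits or the ends. -/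
lemma sym_separated {i j : Fin (base k)} {m : Mid k} (h : sym i = some m)
    (hj : j.val = i.val + 1 ∨ j.val + 1 = i.val) : sym j = none := by
  cases hs : sym j with
  | none => rfl
  | some m' =>
    rw [sym_eq_some] at h hs
    subst h hs
    simp only [pos] at hj
    omega

/-! ### The top-down fold -/

/-- The relation of a line of kind `i` to the line of kind `i + 1`. -/
inductive Rel (α : Type) where
  | apart
  | same
  | next (d : α)
  | later (d : α)
deriving DecidableEq, Fintype

set_option synthInstance.maxSize 2000 in
/-- The folded data of a tile. -/
structure Flags (k : ℕ) where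
  /-- a line of this kind is present -/
  eq : Fin 3 → Bool
  /-- a projection line of this kind is present -/
  peq : Fin 3 → Bool
  /-- a bridge for this track is present -/
  br : Option (Fin k) → Bool
  /-- the digit is a marker -/
  wasH : Fin 3 → Bool
  /-- the digit is a padded marker -/
  wasP : Fin 3 → Bool
  rel : Fin 3 → Rel (Full k)
  prel : Fin 3 → Rel Bool
deriving DecidableEq, Fintype

/-- The flags below no symbol at all. -/
def Flags.off : Flags k :=
  ⟨fun _ => false, fun _ => false, fun _ => false, fun _ => false, fun _ => false,
    fun _ => .apart, fun _ => .apart⟩

/-- The flags of a child from those of its parent and its own digits. -/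
def Flags.step (f : Flags k) (z : Fin 3 → Option (Mid k)) : Flags k where
  eq i := match z i with
    | some .hash => true
    | some (.full d) => f.eq i && decide (z (i + 1) = some (.full d))
    | _ => false
  peq i := match z i with
    | some .phash => true
    | some (.pad b) => f.peq i && decide (z (i + 1) = some (.pad b))
    | _ => false
  br s := match z 0 with
    | some .hash => decide (z 1 = some .phash)
    | some (.full d) => f.br s && decide (z 1 = some (.pad (d s)))
    | _ => false
  wasH i := decide (z i = some .hash)
  wasP i := decide (z i = some .phash)
  rel i := match z i with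
    | some .hash => match z (i + 1) with
      | some .hash => .same
      | some (.full d) => if f.wasH (i + 1) then .next d else .later d
      | _ => .apart
    | some (.full d) =>
      if f.eq i && decide (z (i + 1) = some (.full d)) then f.rel i else .apart
    | _ => .apart
  prel i := match z i with
    | some .phash => match z (i + 1) with
      | some .phash => .same
      | some (.pad b) => if f.wasP (i + 1) then .next b else .later b
      | _ => .apart
    | some (.pad b) =>
      if f.peq i && decide (z (i + 1) = some (.pad b)) then f.prel i else .apart
    | _ => .apart

/-- The flags at level `0` below a tile of level `n` with flags `f` and digits `z`. -/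
def Flags.down (z : ℕ → Fin 3 → Option (Mid k)) : ℕ → Flags k → Flags k
  | 0, f => f
  | n + 1, f => Flags.down z n (f.step (z n))

/-- The flags that occur. -/
inductive Flags.Reach : Flags k → Prop
  | off : Flags.Reach Flags.off
  | step {f : Flags k} (z : Fin 3 → Option (Mid k)) : Flags.Reach f → Flags.Reach (f.step z)

/-- Two present lines of consecutive kinds have a relation. -/
lemma Flags.Reach.rel_ne_apart {f : Flags k} (hf : f.Reach) :
    ∀ i, f.eq i = true → f.eq (i + 1) = true → f.rel i ≠ .apart := by
  induction hf with
  | off => intro i h; simp [Flags.off] at h
  | step z _ ih =>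
    intro i h h'
    simp only [Flags.step] at h h' ⊢
    rcases hz : z i with _ | m
    · simp [hz] at h
    · cases m <;> simp [hz] at h ⊢
      · rename_i d
        rw [h.2] at h'
        simp only [Bool.and_eq_true] at h'
        exact ⟨h.1, h.2, ih i h.1 h'.1⟩
      · rcases hz' : z (i + 1) with _ | m'
        · simp [hz'] at h'
        · cases m' <;> simp [hz'] at h' ⊢
          split <;> simp

/-- The match bit of a child: `top` is the top letter of its own word, `ptop` that of the word of
its parent; `none` is a star or no word. -/
def matchStep (m : Bool) (z : Fin 3 → Option (Mid k)) (top ptop : Option (Full k)) : Bool :=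
  match z 2, z 0 with
  | some .reset, some .hash => top.isSome
  | some .pass, some .hash => top.isSome && ptop.isNone
  | some .pass, some (.full d) => m && decide (ptop = some d)
  | _, _ => false

/-! ### The coset layer -/

/-- The coset fields of a cell. -/
structure JCell (k : ℕ) where
  /-- the values of the lines -/
  J : Fin 3 → Option (Full k)
  /-- the value of the bridge -/
  B : Option (Full k)
  /-- the values of the projection lines, by track -/
  Q : Fin 3 → Option (Fin k) → Option Bool
deriving DecidableEq, Fintype

/-- The rule of a crossing: `a` is on the shorter line, `b` on the longer one. -/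
def Rel.Holds {α : Type} (r : Rel α) (a b : Option α) : Prop :=
  match r with
  | .apart => True
  | .same => a = b
  | .next d => a = some d ↔ b.isSome
  | .later d => b.isSome → a = some d

/-- A bridge is present. -/
def Flags.HasB (f : Flags k) : Prop := ∃ s, f.br s = true

/-- The rules inside one cell: its own digits, its flags, its match bit and its coset fields. -/
structure CellOK (z : Fin 3 → Option (Mid k)) (f : Flags k) (m : Bool) (c : JCell k) : Prop where
  absentJ : ∀ i, f.eq i = false → c.J i = none
  absentB : ¬f.HasB → c.B = none
  absentQ : ∀ i s, f.peq i = false → c.Q i s = none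
  root : ∀ i, z i = some .hash → (c.J i).isSome
  rootQ : ∀ i s, z i = some .phash → (c.Q i s).isSome
  nested : ∀ i, f.eq i = true → f.eq (i + 1) = true → (f.rel i).Holds (c.J i) (c.J (i + 1))
  nestedB : f.eq 2 = true → f.HasB → (f.rel 2).Holds (c.J 2) c.B
  nestedQ : ∀ i s, f.peq i = true → f.peq (i + 1) = true →
    (f.prel i).Holds (c.Q i s) (c.Q (i + 1) s)
  bridge : f.HasB → f.eq 0 = true → c.B = c.J 0
  proj : ∀ s b, f.br s = true → f.peq 1 = true → c.B = some b → c.Q 1 s = some (b s)
  killJ : m = true → c.J 0 = none
  killB : m = true → c.B = none

/-- The only rule between cosets: `c` is the cell at `u`, `c'` the same cell at `u * g s`. -/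
def EdgeOK (s : Fin k) (c c' : JCell k) : Prop := ∀ i, c.Q i (some s) = c'.Q i none

/-- The rule across a counter axis (in the plane all fields are equal). -/
def LineOK (a : Fin 3) (c c' : JCell k) : Prop :=
  (∀ i, i + 2 = a → c.J i = c'.J i ∧ c.Q i = c'.Q i) ∧ (a = 2 → c.B = c'.B)

end Vale.Agent.P193.W4
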