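import Vale.Agent.P193.BH.Defs
import Vale.Agent.P193.Machine.Defs
import Vale.Agent.P193.W4.Readout

/-!
P193, module W4: what the coset layer (B) and the rigidity proof (C) may use of the common layer (A).

Levels count from the base level of the tiles. A tile of level `n + 1` consists, on each counter
axis, of `base k` tiles of level `n`; the plane is not visible in the interface.
-/

namespace Vale.Agent.P193.W4

open BH

variable {k : ℕ}

/-! ### The lattice -/

/-- Three counter axes and the plane. -/
abbrev V : Type := (Fin 3 → ℤ) × (Fin 2 → ℤ)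

/-- The lattice as a multiplicative group. -/
abbrev Lat : Type := Multiplicative V

/-- The window of the common layer. -/
def cube : Finset Lat :=
  Finset.univ.image fun w : (Fin 3 → Bool) × (Fin 2 → Bool) =>
    Multiplicative.ofAdd ((fun i => if w.1 i then (1 : ℤ) else 0, fun i => if w.2 i then (1 : ℤ) else 0))

/-! ### The folded state of a tile -/

/-- A word of a tile: one entry per lower level, `none` is a star. -/
abbrev Word (k : ℕ) : Type := List (Option (Full k))

/-- What is folded from above. -/
structure St (k : ℕ) where
  flags : Flags k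
  /-- the word, absent unless it is passed on -/
  word : Option (Word k)
  /-- the word is being matched -/
  hit : Bool

/-- An emitted word padded with stars to the level. -/
def padWord (n : ℕ) (w : List (Full k)) : Word k :=
  (w.map some ++ List.replicate n none).take n

/-- The word of a child of level `n`. -/
def wordStep (em : ℕ → Option (List (Full k))) (n : ℕ) (w : Option (Word k)) :
    Option (Mid k) → Option (Word k)
  | some .reset => (em n).map (padWord n)
  | some .pass => w.map (List.take n)
  | _ => none

/-- The top letter of a word. -/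
def topLetter (w : Option (Word k)) : Option (Full k) :=
  (w.bind List.getLast?).join

/-- The state of a child of level `n` from that of its parent and its own digits. -/
def St.step (em : ℕ → Option (List (Full k))) (n : ℕ) (s : St k)
    (z : Fin 3 → Option (Mid k)) : St k where
  flags := s.flags.step z
  word := wordStep em n s.word (z 2)
  hit := matchStep s.hit z (topLetter (wordStep em n s.word (z 2))) (topLetter s.word)

/-- The shape of a word of level `n`: its stars are on top and its lowest letter is no star. -/
def WordOK (n : ℕ) (w : Word k) : Prop :=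
  w.length = n ∧ ∀ i (h : i < w.length), w[i] = none →
    0 < i ∧ ∀ j (h' : j < w.length), i ≤ j → w[j] = none

/-- Two states that may sit in tiles next to each other along the counter axis `a`. -/
structure St.Beside (a : Fin 3) (s s' : St k) : Prop where
  eq : ∀ i, a ≠ i → a ≠ i + 1 → s.flags.eq i = s'.flags.eq i
  peq : ∀ i, a ≠ i → a ≠ i + 1 → s.flags.peq i = s'.flags.peq i
  rel : ∀ i, a ≠ i → a ≠ i + 1 → s.flags.rel i = s'.flags.rel i
  prel : ∀ i, a ≠ i → a ≠ i + 1 → s.flags.prel i = s'.flags.prel i
  br : a = 2 → s.flags.br = s'.flags.br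
  wasH : ∀ i, a ≠ i → s.flags.wasH i = s'.flags.wasH i
  wasP : ∀ i, a ≠ i → s.flags.wasP i = s'.flags.wasP i
  word : a ≠ 2 → s.word = s'.word
  hit : a = 1 → s.hit = s'.hit

/-! ### Towers -/

/-- The tiles of all levels on the counter axes: `shift n i` places the tiles of level `n` in those
of level `n + 1`, `st n t` is the state of the tile `t` of level `n`. -/
structure Tower (k : ℕ) (em : ℕ → Option (List (Full k))) where
  shift : ℕ → Fin 3 → Fin (base k)
  st : ℕ → (Fin 3 → ℤ) → St k
  step : ∀ n t, st n t = (st (n + 1) fun i => (t i + (shift n i).val) / (base k : ℤ)).step em n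
    fun i => sym ⟨((t i + (shift n i).val) % (base k : ℤ)).toNat, by
      have hb : (0 : ℤ) < base k := by unfold base; omega
      have := Int.emod_lt_of_pos (t i + (shift n i).val) hb
      have := Int.emod_nonneg (t i + (shift n i).val) hb.ne'
      omega⟩
  reach : ∀ n t, (st n t).flags.Reach
  wordOK : ∀ n t w, (st n t).word = some w → WordOK n w
  beside : ∀ n t a, (st n t).Beside a (st n (Function.update t a (t a + 1)))

variable {em : ℕ → Option (List (Full k))}

namespace Tower

/-- The tile of level `n` above a cell. -/
def tile (T : Tower k em) (v : Fin 3 → ℤ) : ℕ → Fin 3 → ℤ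
  | 0 => v
  | n + 1 => fun i => (tile T v n i + (T.shift n i).val) / (base k : ℤ)

variable (T : Tower k em)

/-- The digit at level `n` of a cell. -/
def digit (v : Fin 3 → ℤ) (n : ℕ) (i : Fin 3) : Fin (base k) :=
  ⟨((T.tile v n i + (T.shift n i).val) % (base k : ℤ)).toNat, by
    have hb : (0 : ℤ) < base k := by unfold base; omega
    have := Int.emod_lt_of_pos (T.tile v n i + (T.shift n i).val) hb
    have := Int.emod_nonneg (T.tile v n i + (T.shift n i).val) hb.ne'
    omega⟩

/-- Every fold at the cell is reset at some level. -/
def Closed (v : Fin 3 → ℤ) : Prop := ∀ i, ∃ n, sym (T.digit v n i) = none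

/-- Every cell has arbitrarily high dead digits on every axis. -/
def Reset : Prop := ∀ v i m, ∃ n, m ≤ n ∧ sym (T.digit v n i) = none

/-- The digits below `n` on axis `i` are neither of the two ends. -/
def MiddleBelow (v : Fin 3 → ℤ) (n : ℕ) (i : Fin 3) : Prop :=
  ∀ m, m < n → 0 < (T.digit v m i).val ∧ (T.digit v m i).val + 1 < base k

end Tower

/-! ### Module A -/

/-- The common layer for an enumeration `em` of words. -/
structure Common (k : ℕ) (em : ℕ → Option (List (Full k))) where
  S : SFT Lat
  win_eq : S.win = cube
  nonempty : Nonempty S.X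
  free : ∀ (x : S.X) (γ : Lat), S.act γ x = x → γ = 1
  rigid : S.Rigid
  /-- the digits of a cell at level `0` -/
  own : S.A → Fin 3 → Fin (base k)
  /-- the flags of a cell -/
  flags : S.A → Flags k
  /-- the match bit of a cell -/
  hit : S.A → Bool
  tower : S.X → Tower k em
  own_tower : ∀ (x : S.X) (v : V),
    own (x.1 (Multiplicative.ofAdd v)) = (tower x).digit v.1 0
  flags_tower : ∀ (x : S.X) (v : V),
    flags (x.1 (Multiplicative.ofAdd v)) = ((tower x).st 0 v.1).flags
  hit_tower : ∀ (x : S.X) (v : V),
    hit (x.1 (Multiplicative.ofAdd v)) = ((tower x).st 0 v.1).hit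
  /-- Digits and states of a cell are read from finitely many cells. -/
  local_tower : ∀ (v : V) (n : ℕ), ∃ U : Finset Lat, ∀ x x' : S.X, S.AgreeOn U x x' →
    (∀ m, m ≤ n → (tower x).digit v.1 m = (tower x').digit v.1 m) ∧
      (tower x).st n ((tower x).tile v.1 n) = (tower x').st n ((tower x').tile v.1 n)
  /-- Towers move with the points. -/
  tower_act : ∀ (x : S.X) (w v : V) (n : ℕ),
    (tower (S.act (Multiplicative.ofAdd w) x)).digit v.1 n = (tower x).digit (v - w).1 n ∧
      (tower (S.act (Multiplicative.ofAdd w) x)).st n
          ((tower (S.act (Multiplicative.ofAdd w) x)).tile v.1 n) =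
        (tower x).st n ((tower x).tile (v - w).1 n)
  /-- A point agrees on a finite set with a point of any tower having the same digits up to a high
  level and the same states of the tiles there and of those behind them. -/
  approx : ∀ (x : S.X) (U : Finset Lat), ∃ (U₁ : Finset Lat) (N₀ : ℕ), U ⊆ U₁ ∧
    ∀ N, N₀ ≤ N → ∀ T : Tower k em,
    T.Reset →
    (∀ γ ∈ U₁, ∀ m, m ≤ N + 1 →
      T.digit (Multiplicative.toAdd γ).1 m = (tower x).digit (Multiplicative.toAdd γ).1 m) →
    (∀ γ ∈ U₁, ∀ d : Fin 3 → Bool,
      T.st (N + 1) (fun i => T.tile (Multiplicative.toAdd γ).1 (N + 1) i - if d i then 1 else 0) =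
        (tower x).st (N + 1)
          fun i => (tower x).tile (Multiplicative.toAdd γ).1 (N + 1) i - if d i then 1 else 0) →
    ∃ x' : S.X, S.AgreeOn U x' x ∧ ∀ v m, (tower x').digit v m = T.digit v m
  /-- Patterns of points with dead digits everywhere above occur in every point, with their low
  digits. -/
  recur : ∀ (x' : S.X) (U : Finset Lat), (tower x').Reset →
    ∀ (M : ℕ) (x : S.X), ∃ δ : Lat, S.AgreeOn U (S.act δ x) x' ∧ ∀ γ ∈ U, ∀ m, m < M →
      (tower (S.act δ x)).digit (Multiplicative.toAdd γ).1 m =
        (tower x').digit (Multiplicative.toAdd γ).1 m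
  /-- If the keys of `a` on axes `i`, `i + 1` are middle below level `n`, then the cells with these
  keys determine the digits of `a` up to level `n` and every cell in the same tiles of level `n` on
  these axes. -/
  visible : ∀ (n : ℕ) (i : Fin 3) (a : V) (x x' : S.X),
    (∀ j, j = i ∨ j = i + 1 → (tower x).MiddleBelow a.1 n j) →
    (∀ v : V, v.1 i = a.1 i → v.1 (i + 1) = a.1 (i + 1) →
      x.1 (Multiplicative.ofAdd v) = x'.1 (Multiplicative.ofAdd v)) →
    (∀ m, m ≤ n → (tower x).digit a.1 m = (tower x').digit a.1 m) ∧
      ∀ b : V, (∀ j, j = i ∨ j = i + 1 → (tower x).tile a.1 n j = (tower x).tile b.1 n j) →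
        x.1 (Multiplicative.ofAdd b) = x'.1 (Multiplicative.ofAdd b)

/-- `em n` is the word shown by the machine at time `n`. -/
def Emits (R : Machine.EnumRule (Full k)) (em : ℕ → Option (List (Full k))) : Prop :=
  ∀ n, (R.emit (R.row n 0) = false ∧ em n = none) ∨
    (R.emit (R.row n 0) = true ∧ ∃ w, em n = some w ∧ R.Shows (R.row n) w)

/-- Module A, for the emissions of a machine of W3. -/
def CommonStatement : Prop :=
  ∀ (k : ℕ) (R : Machine.EnumRule (Full k)) (e : ℕ → List (Full k)), 0 < k → R.Enumerates e →
    (∀ n, e n ≠ []) → ∀ em, Emits R em → Nonempty (Common k em)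

end Vale.Agent.P193.W4
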