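import Vale.Agent.P193.Machine.Enum
import Vale.Agent.P193.W4.Coset.Emit
import Vale.Agent.P193.W4.Tower.Line

/-!
P193, module W4: the emissions. A machine of W3 shows exactly the words that begin no path, and in
every point every emitted word is tested near every cell.
-/

namespace Vale.Agent.P193.W4

open Vale.Agent.P193.Action Machine Coset

variable {k : ℕ}

lemma shows_unique {β : Type} {R : EnumRule β} {r : ℕ → R.α} {w w' : List β} (h : R.Shows r w)
    (h' : R.Shows r w') : w = w' := by
  have key : ∀ {w w' : List β}, R.Shows r w → R.Shows r w' → w.length ≤ w'.length → w = w' := by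
    intro w w' h h' hl
    have hlen : w.length = w'.length := by
      by_contra hne
      have e1 := h w.length le_rfl
      rw [h' w.length hl, List.getElem?_eq_getElem (show w.length < w'.length by omega),
        List.getElem?_eq_none le_rfl] at e1
      cases e1
    exact List.ext_getElem? fun i => by
      rcases le_or_gt i w.length with hi | hi
      · rw [← h i hi, ← h' i (hi.trans hl)]
      · rw [List.getElem?_eq_none hi.le, List.getElem?_eq_none (hlen ▸ hi.le)]
  rcases le_total w.length w'.length with hl | hl
  exacts [key h h' hl, (key h' h hl).symm]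

/-- What the emissions of the words that begin no path satisfy. -/
structure EmitsBad {K : Type} [Group K] {g : Fin k → K} (E : EffAction K g)
    (em : ℕ → Option (List (Full k))) : Prop where
  noExt : ∀ n w, em n = some w → NoExt E w
  ne_nil : ∀ n w, em n = some w → w ≠ []
  length_le : ∀ n w, em n = some w → w.length ≤ n
  complete : ∀ w, NoExt E w → ∀ T, ∃ n, T ≤ n ∧ em n = some w

variable {K : Type} [Group K] {g : Fin k → K}

/-- A machine of W3 and its emissions. -/
theorem exists_emission (E : EffAction K g) (hk : 0 < k) :
    ∃ (R : EnumRule (Full k)) (e : ℕ → List (Full k)) (em : ℕ → Option (List (Full k))),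
      R.Enumerates e ∧ (∀ n, e n ≠ []) ∧ Emits R em ∧ EmitsBad E em := by
  let inst : Primcodable (Full k) :=
    Primcodable.ofEquiv (Fin (Fintype.card (Full k))) (Fintype.equivFin (Full k))
  obtain ⟨e, he, hiff⟩ := exists_emit E hk
  obtain ⟨R, hR⟩ := Machine.enumStatement (Full k) e he
  have hne : ∀ n, e n ≠ [] := fun n => NoExt.ne_nil E ((hiff _).1 ⟨n, rfl⟩)
  classical
  let em : ℕ → Option (List (Full k)) := fun n =>
    if h : R.emit (R.row n 0) = true then some (e (hR.sound n h).choose) else none
  have hem : ∀ n w, em n = some w →
      R.emit (R.row n 0) = true ∧ w.length ≤ n ∧ R.Shows (R.row n) w ∧ ∃ j, e j = w := by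
    intro n w hw
    by_cases h : R.emit (R.row n 0) = true
    · simp only [em, dif_pos h, Option.some.injEq] at hw
      subst hw
      exact ⟨h, (hR.sound n h).choose_spec.1, (hR.sound n h).choose_spec.2, _, rfl⟩
    · simp [em, dif_neg h] at hw
  refine ⟨R, e, em, hR, hne, fun n => ?_, ?_, ?_, ?_, ?_⟩
  · by_cases h : R.emit (R.row n 0) = true
    · exact Or.inr ⟨h, _, dif_pos h, (hR.sound n h).choose_spec.2⟩
    · exact Or.inl ⟨Bool.eq_false_iff.2 h, dif_neg h⟩
  · exact fun n w hw => (hiff w).1 (hem n w hw).2.2.2
  · exact fun n w hw => NoExt.ne_nil E ((hiff w).1 (hem n w hw).2.2.2)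
  · exact fun n w hw => (hem n w hw).2.1
  · intro w hw T
    obtain ⟨j, rfl⟩ := (hiff w).2 hw
    obtain ⟨t, ht, h1, h2⟩ := hR.complete j T
    refine ⟨t, ht, ?_⟩
    rw [show em t = some (e (hR.sound t h1).choose) from dif_pos h1]
    exact congrArg some (shows_unique (hR.sound t h1).choose_spec.2 h2)

/-- Module A gives a common layer for the emissions of the words that begin no path. -/
theorem exists_common (hA : CommonStatement) (E : EffAction K g) (hk : 0 < k) :
    ∃ em, EmitsBad E em ∧ Nonempty (Common k em) := by
  obtain ⟨R, e, em, hR, hne, hem, hbad⟩ := exists_emission E hk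
  exact ⟨em, hbad, hA k R e hk hR hne em hem⟩

/-! ### The test of an emitted word -/

variable {em : ℕ → Option (List (Full k))}

/-- The digit of axis `0` in the test of `w`: the word, then the marker. -/
noncomputable def testKey (w : List (Full k)) (m : ℕ) : Fin (base k) :=
  match w[m]? with
  | some d => pos (.full d)
  | none => if m = w.length then pos .hash else idle

/-- The digit of axis `1` in the test of `w`: the word alone. -/
noncomputable def testCopy (w : List (Full k)) (m : ℕ) : Fin (base k) :=
  match w[m]? with
  | some d => pos (.full d)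
  | none => idle

/-- The digits of the test of `w`, emitted at level `n`. -/
noncomputable def testDigits (w : List (Full k)) (n m : ℕ) : Fin 3 → Fin (base k) :=
  ![testKey w m, testCopy w m, if m = n then pos .reset else pos .pass]

lemma sym_pos (m : Mid k) : sym (pos m) = some m := sym_eq_some.2 rfl

namespace Tower

variable (T : Tower k em) {w : List (Full k)} {n : ℕ} {v : Fin 3 → ℤ}

/-- The word of the levels below its emission. -/
lemma word_test (hn : em n = some w) (hd : ∀ m, m ≤ n → T.digit v m = testDigits w n m) :
    ∀ j m, m + j = n →
      (T.st m (T.tile v m)).word = some ((w.map some ++ List.replicate n none).take m)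
  | 0, m, hm => by
    obtain rfl : m = n := hm
    rw [T.st_tile]
    simp [St.step, wordStep, hd m le_rfl, testDigits, sym_pos, hn, padWord]
  | j + 1, m, hm => by
    have ih := word_test hn hd j (m + 1) (by omega)
    rw [T.st_tile]
    simp [St.step, wordStep, hd m (by omega), testDigits, sym_pos, ih, show m ≠ n by omega,
      List.take_take]

lemma topLetter_take (w : List (Full k)) (n m : ℕ) (hm : m < n) :
    topLetter (some ((w.map some ++ List.replicate n none).take (m + 1))) = w[m]? := by
  simp only [topLetter, Option.bind_some]
  rw [List.getLast?_eq_getElem?, List.length_take, List.length_append, List.length_map,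
    List.length_replicate, show min (m + 1) (w.length + n) - 1 = m by omega, List.getElem?_take]
  simp only [show m < m + 1 by omega, if_true]
  rcases lt_or_ge m w.length with h | h
  · rw [List.getElem?_append_left (by simpa using h), List.getElem?_map,
      List.getElem?_eq_getElem h]
    rfl
  · rw [List.getElem?_append_right (by simpa using h), List.getElem?_replicate,
      List.getElem?_eq_none h]
    split <;> rfl

/-- The test of an emitted word matches at every level up to the marker. -/
lemma hit_test (hn : em n = some w) (hne : w ≠ []) (hl : w.length ≤ n)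
    (hd : ∀ m, m ≤ n → T.digit v m = testDigits w n m) :
    ∀ j m, m + j = w.length →
      (T.st m (T.tile v m)).hit = true ∧ (T.st m (T.tile v m)).flags.eq 0 = true
  | 0, m, hm => by
    obtain rfl : m = w.length := hm
    have hpos : 0 < w.length := List.length_pos_of_ne_nil hne
    have e0 : T.digit v w.length 0 = pos .hash := by
      simp [hd _ hl, testDigits, testKey]
    have ht : topLetter (T.st w.length (T.tile v w.length)).word = w[w.length - 1]? := by
      have := topLetter_take w n (w.length - 1) (by omega)
      rw [show w.length - 1 + 1 = w.length by omega] at this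
      rw [T.word_test hn hd (n - w.length) w.length (by omega), this]
    have hsome : (w[w.length - 1]?).isSome = true := by
      rw [List.getElem?_eq_getElem (by omega)]
      rfl
    rw [T.st_tile]
    rw [T.st_tile] at ht
    simp only [St.step, Flags.step] at ht ⊢
    refine ⟨?_, by simp [e0, sym_pos]⟩
    rcases eq_or_lt_of_le hl with heq | hlt
    · simp only [matchStep, e0, sym_pos, ht]
      have e2 : T.digit v w.length 2 = pos .reset := by rw [hd _ hl]; simp [testDigits, heq]
      simp [e2, sym_pos] at ht ⊢
      simpa [ht] using hsome
    · have e2 : T.digit v w.length 2 = pos .pass := by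
        simp [hd _ hl, testDigits, show w.length ≠ n by omega]
      have hp : topLetter (T.st (w.length + 1) (T.tile v (w.length + 1))).word = none := by
        rw [T.word_test hn hd (n - (w.length + 1)) _ (by omega), topLetter_take w n _ hlt,
          List.getElem?_eq_none le_rfl]
      simp only [matchStep, e0, e2, sym_pos] at ht ⊢
      rw [ht, hp]
      simpa using hsome
  | j + 1, m, hm => by
    have hlt : m < w.length := by omega
    obtain ⟨h1, h2⟩ := hit_test hn hne hl hd j (m + 1) (by omega)
    have e0 : T.digit v m 0 = pos (.full w[m]) := by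
      simp [hd m (by omega), testDigits, testKey, List.getElem?_eq_getElem hlt]
    have e1 : T.digit v m 1 = pos (.full w[m]) := by
      simp [hd m (by omega), testDigits, testCopy, List.getElem?_eq_getElem hlt]
    have e2 : T.digit v m 2 = pos .pass := by
      simp [hd m (by omega), testDigits, show m ≠ n by omega]
    have hp : topLetter (T.st (m + 1) (T.tile v (m + 1))).word = some w[m] := by
      rw [T.word_test hn hd (n - (m + 1)) _ (by omega), topLetter_take w n m (by omega),
        List.getElem?_eq_getElem hlt]
    rw [T.st_tile]
    constructor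
    · simp [St.step, matchStep, e0, e2, sym_pos, h1, hp]
    · simp [St.step, Flags.step, e0, e1, sym_pos, h2]

/-- An emitted word is tested near every cell: the line of kind `0` of its slot is present and
matches. -/
theorem exists_test (hn : em n = some w) (hne : w ≠ []) (hl : w.length ≤ n) (u : Fin 3 → ℤ) :
    ∃ v, (∀ i, |v i - u i| < (base k : ℤ) ^ (n + 1)) ∧
      (∀ m, m ≤ n → T.digit v m = testDigits w n m) ∧
      ∀ m, m ≤ w.length →
        (T.st m (T.tile v m)).hit = true ∧ (T.st m (T.tile v m)).flags.eq 0 = true := by
  obtain ⟨v, -, hv, hd⟩ := T.exists_cell_near (n + 1) u (testDigits w n)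
  have hd' : ∀ m, m ≤ n → T.digit v m = testDigits w n m :=
    fun m hm => funext fun i => hd m (by omega) i
  exact ⟨v, hv, hd', fun m hm => T.hit_test hn hne hl hd' (w.length - m) m (by omega)⟩

end Tower

/-- In every point every emitted word has a matching cell near every cell, with the line of kind
`0` of its slot. -/
theorem Common.exists_test {K : Type} [Group K] {g : Fin k → K} {E : EffAction K g}
    (hem : EmitsBad E em) (C : Common k em) {n : ℕ} {w : List (Full k)} (hn : em n = some w)
    (x : C.S.X) (u : V) :
    ∃ v : V, v.2 = u.2 ∧ (∀ i, |v.1 i - u.1 i| < (base k : ℤ) ^ (n + 1)) ∧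
      (∀ m, m ≤ n → (C.tower x).digit v.1 m = testDigits w n m) ∧
      C.hit (x.1 (Multiplicative.ofAdd v)) = true ∧
      (C.flags (x.1 (Multiplicative.ofAdd v))).eq 0 = true := by
  obtain ⟨v, hv, hd, hh⟩ :=
    (C.tower x).exists_test hn (hem.ne_nil n w hn) (hem.length_le n w hn) u.1
  obtain ⟨h1, h2⟩ := hh 0 (Nat.zero_le _)
  refine ⟨(v, u.2), rfl, hv, hd, ?_, ?_⟩
  · rw [C.hit_tower]; exact h1
  · rw [C.flags_tower]; exact h2

end Vale.Agent.P193.W4
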