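import Vale.Agent.P193.W4.Interface

/-!
P193, module W4: the generators of `K` and finite presentability of `K × Lat`.
-/

namespace Vale.Agent.P193.W4

open Monoid

/-- A finitely presented group has a finite generating set. -/
theorem exists_finite_gen (G : Type) [Group G] (h : Group.IsFinitelyPresented G) :
    ∃ S : Finset G, Subgroup.closure (S : Set G) = ⊤ := by
  classical
  obtain ⟨n, φ, hφ, -⟩ := h
  refine ⟨Finset.univ.image fun i => φ (FreeGroup.of i), ?_⟩
  rw [Finset.coe_image, Finset.coe_univ, Set.image_univ, show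
    (Set.range fun i => φ (FreeGroup.of i)) = φ '' Set.range FreeGroup.of from Set.range_comp _ _,
    ← MonoidHom.map_closure, FreeGroup.closure_range_of, Subgroup.map_top_of_surjective φ hφ]

/-- An injective symmetric list of generators without `1`. -/
structure Gens (K : Type) [Group K] (k : ℕ) where
  g : Fin k → K
  inj : Function.Injective g
  ne_one : ∀ s, g s ≠ 1
  symm : ∀ s, ∃ s', g s' = (g s)⁻¹
  closure : Subgroup.closure (Set.range g) = ⊤
  pos : 0 < k

/-- An infinite finitely presented group has such a list. -/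
theorem exists_gens (K : Type) [Group K] [Infinite K] (h : Group.IsFinitelyPresented K) :
    ∃ k, Nonempty (Gens K k) := by
  classical
  obtain ⟨S, hS⟩ := exists_finite_gen K h
  let T : Finset K := (S ∪ S.image (·⁻¹)).erase 1
  let g : Fin T.card → K := fun i => (T.equivFin.symm i).1
  have hrange : Set.range g = (T : Set K) := by
    ext x
    refine ⟨?_, fun hx => ⟨T.equivFin ⟨x, hx⟩, by simp [g]⟩⟩
    rintro ⟨i, rfl⟩
    exact (T.equivFin.symm i).2
  have hcl : Subgroup.closure (Set.range g) = ⊤ := by
    refine top_le_iff.1 (hS ▸ (Subgroup.closure_le _).2 fun x hx => ?_)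
    by_cases h1 : x = 1
    · exact h1 ▸ Subgroup.one_mem _
    · exact Subgroup.subset_closure (hrange ▸ Finset.mem_erase.2 ⟨h1, Finset.mem_union_left _ hx⟩)
  refine ⟨T.card, ⟨g, fun i j hij => T.equivFin.symm.injective (Subtype.ext hij),
    fun i => (Finset.mem_erase.1 (T.equivFin.symm i).2).1, fun i => ?_, hcl, ?_⟩⟩
  · obtain ⟨h1, h2⟩ := Finset.mem_erase.1 (T.equivFin.symm i).2
    have h3 : (g i)⁻¹ ∈ T := by
      refine Finset.mem_erase.2 ⟨fun e => h1 (inv_eq_one.1 e), ?_⟩
      rcases Finset.mem_union.1 h2 with h2 | h2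
      · exact Finset.mem_union_right _ (Finset.mem_image.2 ⟨_, h2, rfl⟩)
      · obtain ⟨y, hy, hy'⟩ := Finset.mem_image.1 h2
        refine Finset.mem_union_left _ ?_
        show (g i)⁻¹ ∈ S
        rw [show g i = y⁻¹ from hy'.symm, inv_inv]
        exact hy
    exact ⟨T.equivFin ⟨_, h3⟩, by simp [g]⟩
  · by_contra hk
    have he : Set.range g = ∅ := Set.eq_empty_iff_forall_notMem.2 fun x hx => by
      obtain ⟨i, -⟩ := hx
      exact hk (Fin.pos i)
    rw [he, Subgroup.closure_empty] at hcl
    have : Subsingleton K := ⟨fun a b => by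
      have ha : a ∈ (⊥ : Subgroup K) := hcl ▸ Subgroup.mem_top a
      have hb : b ∈ (⊥ : Subgroup K) := hcl ▸ Subgroup.mem_top b
      rw [Subgroup.mem_bot] at ha hb
      rw [ha, hb]⟩
    exact not_finite K

/-- A product of two finitely presented groups is finitely presented. -/
theorem fp_prod (G H : Type) [Group G] [Group H] (hG : Group.IsFinitelyPresented G)
    (hH : Group.IsFinitelyPresented H) : Group.IsFinitelyPresented (G × H) := by
  classical
  obtain ⟨A, hA⟩ := exists_finite_gen G hG
  obtain ⟨B, hB⟩ := exists_finite_gen H hH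
  let c : G × H → Coprod G H := fun p =>
    Coprod.inl p.1 * Coprod.inr p.2 * (Coprod.inl p.1)⁻¹ * (Coprod.inr p.2)⁻¹
  let S : Set (Coprod G H) := c '' ((A : Set G) ×ˢ (B : Set H))
  refine Group.IsFinitelyPresented.of_surjective Coprod.toProd Coprod.toProd_surjective
    ⟨S, ((A.finite_toSet.prod B.finite_toSet).image _), le_antisymm
      (Subgroup.normalClosure_le_normal ?_) fun x hx => ?_⟩
  · rintro _ ⟨p, -, rfl⟩
    simp [c, SetLike.mem_coe, MonoidHom.mem_ker, Prod.ext_iff]
  set N := Subgroup.normalClosure S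
  let q := QuotientGroup.mk' N
  have hgen : ∀ a ∈ A, ∀ b ∈ B, Commute (q (Coprod.inl a)) (q (Coprod.inr b)) := by
    intro a ha b hb
    have h1 : q (c (a, b)) = 1 :=
      (QuotientGroup.eq_one_iff _).2 (Subgroup.subset_normalClosure ⟨(a, b), ⟨ha, hb⟩, rfl⟩)
    simp only [c, map_mul, map_inv, mul_inv_eq_iff_eq_mul, one_mul] at h1
    exact h1
  have h2 : ∀ a ∈ A, ∀ h : H, Commute (q (Coprod.inl a)) (q (Coprod.inr h)) := by
    intro a ha h
    have hh : h ∈ Subgroup.closure (B : Set H) := hB ▸ Subgroup.mem_top h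
    induction hh using Subgroup.closure_induction with
    | mem b hb => exact hgen a ha b hb
    | one => simp
    | mul x y _ _ hx hy => rw [map_mul, map_mul]; exact hx.mul_right hy
    | inv x _ hx => rw [map_inv, map_inv]; exact hx.inv_right
  have h3 : ∀ (g : G) (h : H), Commute (q (Coprod.inl g)) (q (Coprod.inr h)) := by
    intro g h
    have hg : g ∈ Subgroup.closure (A : Set G) := hA ▸ Subgroup.mem_top g
    induction hg using Subgroup.closure_induction with
    | mem a ha => exact h2 a ha h
    | one => simp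
    | mul x y _ _ hx hy => rw [map_mul, map_mul]; exact hx.mul_left hy
    | inv x _ hx => rw [map_inv, map_inv]; exact hx.inv_left
  let φ : G × H →* Coprod G H ⧸ N :=
    MonoidHom.noncommCoprod (q.comp Coprod.inl) (q.comp Coprod.inr) h3
  have e : φ.comp Coprod.toProd = q := by
    apply Coprod.hom_ext <;> ext y <;> simp [φ, q]
  have := DFunLike.congr_fun e x
  rw [MonoidHom.comp_apply, MonoidHom.mem_ker.1 hx, map_one] at this
  exact (QuotientGroup.eq_one_iff x).1 this.symm

theorem fp_pi_int : ∀ n : ℕ, Group.IsFinitelyPresented (Multiplicative (Fin n → ℤ))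
  | 0 => inferInstance
  | n + 1 => by
    have h := fp_prod (Multiplicative ℤ) (Multiplicative (Fin n → ℤ)) inferInstance (fp_pi_int n)
    let e₀ : ℤ × (Fin n → ℤ) ≃+ (Fin (n + 1) → ℤ) :=
      { Fin.consEquiv fun _ => ℤ with
        map_add' := fun a b => by
          funext i
          refine Fin.cases ?_ (fun j => ?_) i <;> simp [Fin.consEquiv] }
    exact Group.IsFinitelyPresented.equiv (h := h)
      ((MulEquiv.prodMultiplicative ℤ (Fin n → ℤ)).symm.trans (AddEquiv.toMultiplicative e₀))

/-- The lattice is finitely presented. -/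
theorem fp_lat : Group.IsFinitelyPresented Lat :=
  Group.IsFinitelyPresented.equiv
    (h := fp_prod _ _ (fp_pi_int 3) (fp_pi_int 2))
    (MulEquiv.prodMultiplicative (Fin 3 → ℤ) (Fin 2 → ℤ)).symm

/-- The group of the simulation is finitely presented and contains `K`. -/
theorem fp_gamma (K : Type) [Group K] (h : Group.IsFinitelyPresented K) :
    Group.IsFinitelyPresented (K × Lat) ∧ ∃ ι : K →* K × Lat, Function.Injective ι :=
  ⟨fp_prod K Lat h fp_lat, MonoidHom.inl K Lat, fun _ _ e => congrArg Prod.fst e⟩

end Vale.Agent.P193.W4
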