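import Vale.Agent.P193.Action.Main
import Vale.Agent.P193.W4.Setup
import Vale.Agent.P193.W4.Emission
import Vale.Agent.P193.W4.Coset.ExistPoint
import Vale.Agent.P193.W4.Rigid.Glue.Main

/-!
P193, module W4: the assembly. The common layer, the realisation and the context lemma of the coset
layer give the simulation.
-/

namespace Vale.Agent.P193.W4

open Vale.Agent.P193.Action

variable {k : ℕ}

/-- What is owed by the coset layer, for every common layer of a code. -/
def LayerStatement : Prop :=
  ∀ (K : Type) [Group K] (k : ℕ) (G : Gens K k) (E : EffAction K G.g)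
    (em : ℕ → Option (List (Full k))) (C : Common k em), EmitsBad E em →
    Coset.Realisable C E ∧ Rigid.CosetsCtx C G.g

/-- The modules give the simulation. -/
theorem simulation_of (hA : CommonStatement) (hL : LayerStatement) :
    BH.SimulationStatement := by
  intro K _ _ hfp hwp
  obtain ⟨k, ⟨G⟩⟩ := exists_gens K hfp
  obtain ⟨E⟩ := exists_effAction K hwp G.g
  obtain ⟨em, hem, ⟨C⟩⟩ := exists_common hA E G.pos
  obtain ⟨hre, hctx⟩ := hL K k G E em C hem
  have hcomp : ∀ w, Coset.NoExt E w → ∃ L, w.length ≤ L ∧ em L = some w := fun w hw => by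
    obtain ⟨L, -, hL'⟩ := hem.complete w hw 0
    exact ⟨L, hem.length_le L w hL', hL'⟩
  obtain ⟨hΓ, hι⟩ := fp_gamma K hfp
  exact ⟨K × Lat, inferInstance, hΓ, hι, cosetSFT C G.g,
    Coset.minimalFree_of_realisable G.closure hem hre,
    Rigid.Glue.rigid_of_cosets hctx G.closure hcomp⟩

end Vale.Agent.P193.W4
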