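import Vale.Agent.P193.Clapham.Main
import Vale.Agent.P193.Pres.Main
import Vale.Agent.P193.Simple.Main
import Vale.Agent.P193.Simple.Translation
import Vale.Agent.P193.W4.Main

/-!
P193: the Boone-Higman statement from the modules still owed by W4.
-/

namespace Vale.Agent.P193.W4

/-- The common layer and the coset layer give the conjecture. -/
theorem answer_of_layer (hA : CommonStatement) (hL : LayerStatement)
    (G : Type) [Group G] (hG : HasDecidableWP G) :
    ∃ (H : Type) (_ : Group H), Group.IsFinitelyPresented H ∧ IsSimpleGroup H ∧
      ∃ f : G →* H, Function.Injective f :=
  BH.answer_of_modules Clapham.clapham (simulation_of hA hL) Pres.presentation Simple.simple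
    Simple.translation G hG

end Vale.Agent.P193.W4
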