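import Vale.Agent.P193.W4.Main
import Vale.Agent.P193.W4.Coset.Realise.Main
import Vale.Agent.P193.W4.Rigid.Coset

/-!
P193, module W4: the coset layer, proved for every common layer.
-/

namespace Vale.Agent.P193.W4

open Vale.Agent.P193.Action

/-- The coset layer: the realisation and the context lemma. -/
theorem layerStatement : LayerStatement := fun K _ k G E em C hem =>
  ⟨Coset.realisable_of_gens G E hem,
    Rigid.cosetsCtx (E := E) G.closure (gs_injective G.inj G.ne_one) fun w hw => by
      obtain ⟨L, -, hL⟩ := hem.complete w hw 0
      exact ⟨L, hem.length_le L w hL, hL⟩⟩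

end Vale.Agent.P193.W4
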