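import Vale.Agent.P193.W4.Chain
import Vale.Agent.P193.W4.Layer
import Vale.Agent.P193.W4.Common.Final

/-!
P193: the Boone-Higman statement from rigidity of the common layer.
-/

namespace Vale.Agent.P193.W4

/-- Rigidity of the common layer gives the conjecture. -/
theorem answer_of_rigid (hrig : ∀ C : Common.Cfg, (Common.sft C).Rigid)
    (G : Type) [Group G] (hG : HasDecidableWP G) :
    ∃ (H : Type) (_ : Group H), Group.IsFinitelyPresented H ∧ IsSimpleGroup H ∧
      ∃ f : G →* H, Function.Injective f :=
  answer_of_layer (Common.commonStatement_of_rigid hrig) layerStatement G hG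

end Vale.Agent.P193.W4
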